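import Vale.Agent.P281.H303.Gen.PushSpec
import Vale.Agent.P281.H511.Gen.Hyp
import Vale.Agent.P281.H150.Gen.Fac

/-! P281, project T-V, block V13d, piece P-NS (helper767). -/

open Set Filter Metric
open Vale.Agent.P281.H64 (Cm)
open scoped Topology ContDiff Manifold

noncomputable section

namespace Vale.Agent.P281.H767

/-- the order of vanishing along a smooth hypersurface, in a vector space -/
theorem pow_mul_cm {n : ℕ} {z : Cm n} {e h : Cm n → ℂ} (he : AnalyticAt ℂ e z) (he0 : e z = 0)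
    (hde : fderiv ℂ e z ≠ 0) (hh : AnalyticAt ℂ h z) (h0 : ¬ ∀ᶠ x in 𝓝 z, h x = 0) :
    ∃ (m : ℕ) (w : Cm n → ℂ), AnalyticAt ℂ w z ∧ (∀ᶠ x in 𝓝 z, h x = e x ^ m * w x) ∧
      ¬ ∀ᶠ x in 𝓝 z, e x = 0 → w x = 0 := by
  have key : ∀ g : Cm n → ℂ, J.HolAt (Cm n) g z ↔ AnalyticAt ℂ g z := by
    intro g
    rw [J.HolAt, contMDiffAt_iff_contDiffAt]
    exact ⟨fun h1 => ContDiffAt.analyticAt h1, fun h1 => h1.contDiffAt⟩
  have hd : J.dif (Cm n) e z ≠ 0 := by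
    rw [J.dif, mfderiv_eq_fderiv]
    exact hde
  obtain ⟨m, w, hw, h1, h2⟩ := H511.Gen.exists_pow_mul ((key e).2 he) he0 hd ((key h).2 hh) h0
  exact ⟨m, w, (key w).1 hw, h1, h2⟩

theorem fderiv_pow_mul {V : Type} [NormedAddCommGroup V] [NormedSpace ℂ V] {g h w : V → ℂ} {x : V}
    {m : ℕ} (hh : DifferentiableAt ℂ h x) (hw : DifferentiableAt ℂ w x)
    (hg : ∀ᶠ y in 𝓝 x, g y = h y ^ (m + 1) * w y) (h0 : h x = 0) :
    fderiv ℂ g x = (h x ^ m * w x) • fderiv ℂ h x := by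
  have h1 : HasFDerivAt (fun y => h y * (h y ^ m * w y))
      (h x • fderiv ℂ (fun y => h y ^ m * w y) x + (h x ^ m * w x) • fderiv ℂ h x) x :=
    hh.hasFDerivAt.mul ((hh.pow m).mul hw).hasFDerivAt
  have h2 : HasFDerivAt g
      (h x • fderiv ℂ (fun y => h y ^ m * w y) x + (h x ^ m * w x) • fderiv ℂ h x) x := by
    refine h1.congr_of_eventuallyEq ?_
    filter_upwards [hg] with y hy
    rw [hy, pow_succ]
    ring
  rw [h2.fderiv]
  ext v
  simp [h0]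

theorem ns : H303.Gen.NsStmt := by
  intro p W G F hW hGF hred V' _ _ _ W' φ hW' hφ x₀ hx₀ hs
  have : CompleteSpace V' := FiniteDimensional.complete ℂ V'
  obtain ⟨⟨hG0, ξ₀, hξ₀, hFξ₀, hGξ₀⟩, hzW⟩ := (hφ x₀ hx₀).2
  set z₀ := φ x₀ with hz₀
  have hFz : AnalyticAt ℂ F z₀ := (hGF z₀ hzW).2
  have hFφ : AnalyticAt ℂ (fun v => F (φ v)) x₀ :=
    AnalyticAt.fun_comp (g := F) (f := φ) hFz (hφ x₀ hx₀).1
  obtain ⟨κ, R, hRa, hR0, hRr, -⟩ := H150.Gen.exists_straight hFφ hs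
  set y₀ : Cm p := F z₀ with hy₀
  have hj : AnalyticAt ℂ (fun y : Cm p => (y, κ x₀)) y₀ := analyticAt_id.prod analyticAt_const
  set s : Cm p → V' := fun y => R (y, κ x₀) with hs'
  have hsa : AnalyticAt ℂ s y₀ :=
    AnalyticAt.fun_comp (g := R) (f := fun y : Cm p => (y, κ x₀)) hRa hj
  have hs0 : s y₀ = x₀ := hR0
  set σ : Cm p → Cm (p + 1) := fun y => φ (s y) with hσ
  have hσa : AnalyticAt ℂ σ y₀ := AnalyticAt.fun_comp (g := φ) (f := s)
    (by rw [hs0]; exact (hφ x₀ hx₀).1) hsa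
  have hσ0 : σ y₀ = z₀ := by
    show φ (s y₀) = φ x₀
    rw [hs0]
  have hσF : ∀ᶠ y in 𝓝 y₀, F (σ y) = y := by
    filter_upwards [hj.continuousAt.tendsto.eventually hRr] with y hy
    exact hy
  set A : Set (Cm (p + 1)) := {z | G z = 0 ∧ ∃ ξ : Cm (p + 1), ξ ≠ 0 ∧ fderiv ℂ F z ξ = 0 ∧
      fderiv ℂ G z ξ = 0} with hA
  have hσA : ∀ᶠ y in 𝓝 y₀, σ y ∈ A ∩ W := by
    have h1 : Tendsto s (𝓝 y₀) (𝓝 x₀) := by
      have := hsa.continuousAt.tendsto
      rwa [hs0] at this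
    filter_upwards [h1.eventually (hW'.mem_nhds hx₀)] with y hy
    exact (hφ _ hy).2
  -- the derivative of the section
  have hdd : ∀ v, fderiv ℂ F z₀ (fderiv ℂ σ y₀ v) = v := by
    have h1 : HasFDerivAt (fun y => F (σ y)) ((fderiv ℂ F z₀).comp (fderiv ℂ σ y₀)) y₀ := by
      refine HasFDerivAt.comp y₀ (g := F) ?_ hσa.differentiableAt.hasFDerivAt
      rw [hσ0]
      exact hFz.differentiableAt.hasFDerivAt
    have h2 : HasFDerivAt (fun y => F (σ y)) (ContinuousLinearMap.id ℂ (Cm p)) y₀ :=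
      (hasFDerivAt_id y₀).congr_of_eventuallyEq hσF
    intro v
    have h3 := congrArg (fun L : Cm p →L[ℂ] Cm p => L v) (h1.unique h2)
    exact h3
  -- the linear form
  obtain ⟨i, hi⟩ : ∃ i, ξ₀ i ≠ 0 := by
    by_contra hcon
    push Not at hcon
    exact hξ₀ (funext hcon)
  set l : Cm (p + 1) →L[ℂ] ℂ := ContinuousLinearMap.proj i with hl
  have hlξ : l ξ₀ ≠ 0 := hi
  set h : Cm (p + 1) → ℂ := fun z => l z - l (σ (F z)) with hh
  have hσF' : AnalyticAt ℂ (fun z => σ (F z)) z₀ :=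
    AnalyticAt.fun_comp (g := σ) (f := F) hσa hFz
  have hha : AnalyticAt ℂ h z₀ := (l.analyticAt z₀).sub
    (AnalyticAt.fun_comp (g := l) (f := fun z => σ (F z)) (l.analyticAt _) hσF')
  have hh0 : h z₀ = 0 := by
    show l z₀ - l (σ y₀) = 0
    rw [hσ0, sub_self]
  have hdh : HasFDerivAt h (l - l.comp ((fderiv ℂ σ y₀).comp (fderiv ℂ F z₀))) z₀ := by
    refine l.hasFDerivAt.sub ?_
    refine HasFDerivAt.comp z₀ (g := l) l.hasFDerivAt ?_
    exact HasFDerivAt.comp z₀ (g := σ) hσa.differentiableAt.hasFDerivAt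
      hFz.differentiableAt.hasFDerivAt
  have hdhv : ∀ v, fderiv ℂ h z₀ v = l v - l (fderiv ℂ σ y₀ (fderiv ℂ F z₀ v)) := by
    intro v
    rw [hdh.fderiv]
    rfl
  have hdhξ : fderiv ℂ h z₀ ξ₀ = l ξ₀ := by
    rw [hdhv, hFξ₀, map_zero, map_zero, sub_zero]
  have hdh0 : fderiv ℂ h z₀ ≠ 0 := by
    intro hcon
    rw [hcon] at hdhξ
    exact hlξ hdhξ.symm
  -- the coordinates `(F, h)`
  set Φ : Cm (p + 1) → Cm p × ℂ := fun z => (F z, h z) with hΦ
  have hΦa : AnalyticAt ℂ Φ z₀ := hFz.prod hha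
  have hΦd : ∀ x, AnalyticAt ℂ F x → AnalyticAt ℂ h x →
      fderiv ℂ Φ x = (fderiv ℂ F x).prod (fderiv ℂ h x) := fun x h1 h2 =>
    (h1.differentiableAt.hasFDerivAt.prodMk h2.differentiableAt.hasFDerivAt).fderiv
  have hΦs : Function.Surjective (fderiv ℂ Φ z₀) := by
    rintro ⟨y, c⟩
    rw [hΦd z₀ hFz hha]
    refine ⟨fderiv ℂ σ y₀ y + ((c - fderiv ℂ h z₀ (fderiv ℂ σ y₀ y)) / l ξ₀) • ξ₀, ?_⟩
    refine Prod.ext ?_ ?_
    · show fderiv ℂ F z₀ _ = y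
      rw [map_add, map_smul, hFξ₀, smul_zero, add_zero, hdd]
    · show fderiv ℂ h z₀ _ = c
      rw [map_add, map_smul, hdhξ, smul_eq_mul, div_mul_cancel₀ _ hlξ]
      ring
  have hker : ∀ v : LinearMap.ker (fderiv ℂ Φ z₀ : Cm (p + 1) →ₗ[ℂ] (Cm p × ℂ)), v = 0 := by
    have h1 : Function.Injective (fderiv ℂ Φ z₀ : Cm (p + 1) →ₗ[ℂ] (Cm p × ℂ)) := by
      rw [LinearMap.injective_iff_surjective_of_finrank_eq_finrank]
      · exact hΦs
      · simp
    rintro ⟨v, hv⟩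
    apply Subtype.ext
    exact h1 ((show (fderiv ℂ Φ z₀ : Cm (p + 1) →ₗ[ℂ] (Cm p × ℂ)) v = 0 from hv).trans
      (map_zero _).symm)
  obtain ⟨κ', R', hRa', hR0', -, hRl'⟩ := H150.Gen.exists_straight hΦa hΦs
  have hκ' : ∀ x y, κ' x = κ' y := fun x y => (hker _).trans (hker _).symm
  have hPt : ContinuousAt (fun x => (Φ x, κ' x)) z₀ :=
    hΦa.continuousAt.prodMk κ'.continuous.continuousAt
  -- near `z₀`, `h = 0` is the image of the section
  have hloc : ∀ᶠ x in 𝓝 z₀, h x = 0 → x ∈ A := by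
    have h1 : Tendsto F (𝓝 z₀) (𝓝 y₀) := hFz.continuousAt.tendsto
    have h2 : Tendsto (fun z => σ (F z)) (𝓝 z₀) (𝓝 z₀) := by
      have := hσF'.continuousAt.tendsto
      rwa [← hy₀, hσ0] at this
    filter_upwards [h1.eventually hσF, h1.eventually hσA, hRl', h2.eventually hRl'] with x h3 h4 h5 h6
      h7
    have h8 : Φ (σ (F x)) = Φ x := by
      refine Prod.ext h3 ?_
      show l (σ (F x)) - l (σ (F (σ (F x)))) = h x
      rw [h3, sub_self, h7]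
    rw [h8, hκ' (σ (F x)) x, h5] at h6
    rw [h6]
    exact h4.1
  -- injectivity of the differential near `z₀`
  have hinj : ∀ᶠ x in 𝓝 z₀, ∀ ξ, fderiv ℂ F x ξ = 0 → fderiv ℂ h x ξ = 0 → ξ = 0 := by
    filter_upwards [hRl'.eventually_nhds, hPt.eventually hRa'.eventually_analyticAt,
      hFz.eventually_analyticAt, hha.eventually_analyticAt] with x h1 h2 h3 h4 ξ h5 h6
    have h7 : HasFDerivAt (fun x => R' (Φ x, κ' x))
        ((fderiv ℂ R' (Φ x, κ' x)).comp ((fderiv ℂ Φ x).prod κ')) x := by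
      refine HasFDerivAt.comp x (g := R') h2.differentiableAt.hasFDerivAt ?_
      exact (h3.prod h4).differentiableAt.hasFDerivAt.prodMk κ'.hasFDerivAt
    have h8 : HasFDerivAt (fun x => R' (Φ x, κ' x)) (ContinuousLinearMap.id ℂ (Cm (p + 1))) x :=
      (hasFDerivAt_id x).congr_of_eventuallyEq h1
    have h9 := congrArg (fun L : Cm (p + 1) →L[ℂ] Cm (p + 1) => L ξ) (h7.unique h8)
    have h10 : fderiv ℂ R' (Φ x, κ' x) (fderiv ℂ Φ x ξ, κ' ξ) = ξ := h9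
    have h11 : fderiv ℂ Φ x ξ = 0 := by
      rw [hΦd x h3 h4]
      exact Prod.ext h5 h6
    rw [h11, hker (κ' ξ)] at h10
    rw [← h10]
    exact map_zero _
  -- `G` is not identically zero near `z₀`
  have hGne : ∀ x, x ∈ W → G x = 0 → ∀ P : Cm (p + 1) → Prop, (∀ᶠ z in 𝓝 x, P z) →
      ∃ z, P z ∧ G z = 0 ∧ fderiv ℂ G z ≠ 0 := by
    intro x hxW hx P hP
    obtain ⟨z, hz1, hz2⟩ := mem_closure_iff_nhds.1 (hred x hxW hx) _ hP
    exact ⟨z, hz1, hz2⟩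
  have hGn : ¬ ∀ᶠ x in 𝓝 z₀, G x = 0 := by
    intro hcon
    obtain ⟨z, hz, -, hz2⟩ := hGne z₀ hzW hG0 _ hcon.eventually_nhds
    apply hz2
    have : HasFDerivAt G (0 : Cm (p + 1) →L[ℂ] ℂ) z :=
      (hasFDerivAt_const (0 : ℂ) z).congr_of_eventuallyEq hz
    exact this.fderiv
  obtain ⟨m, w, hwa, hGw, hwn⟩ := pow_mul_cm hha hh0 hdh0 (hGF z₀ hzW).1 hGn
  have hall := hloc.and (hinj.and (hGw.eventually_nhds.and ((hW.eventually_mem hzW).and
    (hwa.eventually_analyticAt.and hha.eventually_analyticAt))))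
  obtain ⟨x, hx1, ⟨hx2, hx3, hx4, hx5, hx6, hx7⟩⟩ :=
    ((Filter.not_eventually.1 hwn).and_eventually hall).exists
  push Not at hx1
  obtain ⟨hhx, hwx⟩ := hx1
  obtain ⟨hGx, ξ, hξ, hξF, hξG⟩ := hx2 hhx
  rcases m with _ | m
  · have := hx4.self_of_nhds
    rw [pow_zero, one_mul, hGx] at this
    exact hwx this.symm
  rcases m with _ | m
  · rw [fderiv_pow_mul hx7.differentiableAt hx6.differentiableAt hx4 hhx, pow_zero, one_mul] at hξG
    have h1 : w x * fderiv ℂ h x ξ = 0 := hξG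
    exact hξ (hx3 ξ hξF ((mul_eq_zero.1 h1).resolve_left hwx))
  · obtain ⟨z, ⟨hz1, hz2, hz3, hz4⟩, hz5, hz6⟩ := hGne x hx5 hGx _
      (hx4.eventually_nhds.and ((hx6.continuousAt.eventually_ne hwx).and
        (hx6.eventually_analyticAt.and hx7.eventually_analyticAt)))
    have hhz : h z = 0 := by
      have h1 := hz1.self_of_nhds
      rw [hz5] at h1
      rcases mul_eq_zero.1 h1.symm with h2 | h2
      · exact pow_eq_zero_iff (by omega) |>.1 h2
      · exact absurd h2 hz2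
    apply hz6
    rw [fderiv_pow_mul hz4.differentiableAt hz3.differentiableAt hz1 hhz]
    ext v
    simp [hhz]

end Vale.Agent.P281.H767
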